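import Vale.Agent.P181.H51.Digits
import Vale.Agent.P181.H788.Prog

set_option autoImplicit false

/-! Soundness of the digit tests of the kernel program. -/

namespace Vale.Agent.P181.H51

open Finset Vale.Agent.P181.H788

/-- `u` is, modulo `2 ^ (w * (S * R))`, the row with coefficients `c e2 e3`. -/
def RowMod (w S R : ℕ) (u : ℕ) (c : ℕ → ℕ → ℤ) : Prop :=
  ∃ S' : ℕ, R ≤ S' ∧ (u : ℤ) ≡
    (∑ e3 ∈ range S', ∑ e2 ∈ range S, c e2 e3 * 2 ^ (w * (e2 + S * e3))) [ZMOD 2 ^ (w * (S * R))]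

/-- The digits of a row in one index. -/
def flat (S : ℕ) (c : ℕ → ℕ → ℤ) : ℕ → ℤ := fun i => c (i % S) (i / S)

lemma flat_eq {S : ℕ} (c : ℕ → ℕ → ℤ) {e2 e3 : ℕ} (h : e2 < S) :
    flat S c (e2 + S * e3) = c e2 e3 := by
  unfold flat
  have hS : 0 < S := by omega
  rw [Nat.add_mul_mod_self_left, Nat.mod_eq_of_lt h, Nat.add_mul_div_left _ _ hS,
    Nat.div_eq_of_lt h, Nat.zero_add]

lemma sum_rows (w S : ℕ) (c : ℕ → ℕ → ℤ) : ∀ R : ℕ,
    (∑ e3 ∈ range R, ∑ e2 ∈ range S, c e2 e3 * 2 ^ (w * (e2 + S * e3))) =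
      ev (2 ^ w) (S * R) (flat S c) := by
  intro R
  induction R with
  | zero => simp [ev]
  | succ R ih =>
    rw [Finset.sum_range_succ, ih]
    unfold ev
    rw [Nat.mul_succ, Finset.sum_range_add]
    congr 1
    apply Finset.sum_congr rfl
    intro e2 he2
    rw [Nat.add_comm (S * R) e2, flat_eq c (Finset.mem_range.1 he2), ← pow_mul]

lemma row_trunc {w S R u : ℕ} {c : ℕ → ℕ → ℤ} (h : RowMod w S R u c) :
    (u : ℤ) ≡ ev (2 ^ w) (S * R) (flat S c) [ZMOD 2 ^ (w * (S * R))] := by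
  obtain ⟨S', hS', h1⟩ := h
  refine h1.trans ?_
  rw [← sum_rows w S c R]
  obtain ⟨k, rfl⟩ : ∃ k, S' = R + k := ⟨S' - R, by omega⟩
  rw [Finset.sum_range_add]
  have h2 : (∑ x ∈ range k, ∑ e2 ∈ range S, c e2 (R + x) * 2 ^ (w * (e2 + S * (R + x)))) ≡ 0
      [ZMOD 2 ^ (w * (S * R))] := by
    rw [Int.modEq_zero_iff_dvd]
    apply Finset.dvd_sum
    intro x _
    apply Finset.dvd_sum
    intro e2 _
    apply Dvd.dvd.mul_left
    apply pow_dvd_pow
    apply Nat.mul_le_mul_left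
    have h3 : S * (R + x) = S * R + S * x := by ring
    omega
  have h4 := Int.ModEq.add_left (∑ x ∈ range R, ∑ e2 ∈ range S, c e2 x * 2 ^ (w * (e2 + S * x))) h2
  rwa [add_zero] at h4

lemma off_eq (w L : ℕ) : off w L = 2 ^ (w - 1) * ones w L := rfl

lemma lt_index {S R e2 e3 : ℕ} (h2 : e2 < S) (h3 : e3 < R) : e2 + S * e3 < S * R := by
  calc e2 + S * e3 < S + S * e3 := by omega
    _ = S * (e3 + 1) := by ring
    _ ≤ S * R := Nat.mul_le_mul_left _ h3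

lemma flat_forall {S R : ℕ} {c : ℕ → ℕ → ℤ} {p : ℤ → Prop}
    (h : ∀ e2 < S, ∀ e3 < R, p (c e2 e3)) : ∀ i < S * R, p (flat S c i) := by
  intro i hi
  have hS : 0 < S := by
    rcases Nat.eq_zero_or_pos S with h | h
    · subst h; simp at hi
    · exact h
  exact h _ (Nat.mod_lt _ hS) _ (Nat.div_lt_of_lt_mul hi)

/-- **The sign bit of a digit of a row.** -/
theorem sign_bit {w S R u : ℕ} {c : ℕ → ℕ → ℤ} (hw : 0 < w) (h : RowMod w S R u c)
    (hc : ∀ e2 < S, ∀ e3 < R, -2 ^ (w - 1) ≤ c e2 e3 ∧ c e2 e3 < 2 ^ (w - 1))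
    {e2 e3 : ℕ} (h2 : e2 < S) (h3 : e3 < R) :
    Nat.mod (Nat.shiftRight (Nat.mod (u + off w (S * R)) (2 ^ (w * (S * R))))
      (w * (e2 + S * e3) + (w - 1))) 2 = 1 ↔ 0 ≤ c e2 e3 := by
  have h4 := sign_bit_ev hw (flat_forall (p := fun z => -2 ^ (w - 1) ≤ z ∧ z < 2 ^ (w - 1)) hc)
    (row_trunc h) (e2 + S * e3) (lt_index h2 h3)
  rw [flat_eq c h2] at h4
  rw [off_eq]
  exact h4

/-- **The digit test of a row.** -/
theorem digit_test {w S R u v : ℕ} {c : ℕ → ℕ → ℤ} (hv : v + 1 ≤ w) (h : RowMod w S R u c)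
    (hc : ∀ e2 < S, ∀ e3 < R, |c e2 e3| < 2 ^ (w - 1))
    (ht : Nat.land (Nat.mod (u + 2 ^ v * ones w (S * R)) (2 ^ (w * (S * R))))
      ((2 ^ w - 2 ^ (v + 1)) * ones w (S * R)) = 0)
    {e2 e3 : ℕ} (h2 : e2 < S) (h3 : e3 < R) : -2 ^ v ≤ c e2 e3 ∧ c e2 e3 < 2 ^ v := by
  have h4 := digit_test_ev hv (flat_forall (p := fun z => |z| < 2 ^ (w - 1)) hc)
    (row_trunc h) ht (e2 + S * e3) (lt_index h2 h3)
  rwa [flat_eq c h2] at h4

/-! Loops. -/

lemma fb_eq (n : ℕ) (k : ℕ → Bool) : fb n k = k n := by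
  cases n <;> rfl

lemma fc_eq (n : ℕ) (k : ℕ → ℕ) : fc n k = k n := by
  cases n <;> rfl

lemma bc_eq (b c : Bool) : bc b c = (b && c) := by
  cases b <;> rfl

lemma allB_iff (f : ℕ → Bool) (n : ℕ) : allB f n = true ↔ ∀ i < n, f i = true := by
  induction n with
  | zero =>
    constructor
    · intro _ i hi; omega
    · intro _; rfl
  | succ n ih =>
    have h1 : allB f (n + 1) = bc (f n) (allB f n) := rfl
    rw [h1, bc_eq, Bool.and_eq_true, ih]
    constructor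
    · rintro ⟨h2, h3⟩ i hi
      rcases Nat.lt_succ_iff_lt_or_eq.1 hi with h | h
      · exact h3 i h
      · rw [h]; exact h2
    · intro h
      exact ⟨h n (by omega), fun i hi => h i (by omega)⟩

/-- Soundness of `chkRow`. -/
theorem chkRow_sound {w S R u T x : ℕ} (h : chkRow w S R u T x = true) {e1 e2 e3 : ℕ}
    (h12 : e2 < e1) (h23 : e3 < e2) (h3x : x < e3) (hT : e1 + e2 + e3 = T) (h3 : e3 < R) :
    Nat.mod (Nat.shiftRight u (w * (e2 + S * e3) + (w - 1))) 2 = 1 := by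
  unfold chkRow at h
  rw [allB_iff] at h
  have h4 := h (e3 - (x + 1)) (by
    change e3 - (x + 1) < R - (x + 1)
    omega)
  rw [fb_eq] at h4
  have h5 : Nat.add (Nat.succ x) (e3 - (x + 1)) = e3 := by
    change x + 1 + (e3 - (x + 1)) = e3
    omega
  rw [h5, allB_iff] at h4
  have h6 := h4 (e2 - (e3 + 1)) (by
    change e2 - (e3 + 1) < (T - e3 - 1) / 2 - e3
    omega)
  have h7 : Nat.add (Nat.succ e3) (e2 - (e3 + 1)) = e2 := by
    change e3 + 1 + (e2 - (e3 + 1)) = e2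
    omega
  rw [h7] at h6
  exact Nat.eq_of_beq_eq_true h6

/-- **Soundness of `chk`.** -/
theorem chk_sound {w S R D f g X1 : ℕ} {A B : Tb} (hchk : chk w S R D f g A B X1 = true)
    (hw : 1 ≤ w) (hD : D < S) (cA cB : ℕ → ℕ → ℕ → ℕ → ℕ → ℤ)
    (hA : ∀ x y z, z < y → y < x → x < X1 → RowMod w S R (A x y z) (cA x y z))
    (hB : ∀ x y z, z < y → y < x → x < X1 → RowMod w S R (B x y z) (cB x y z))
    (hB' : ∀ x y z, z < y → y < x → x < X1 → B x y z ≤ 2 ^ (w * (S * R)))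
    (hbd : ∀ x y z, z < y → y < x → x < X1 → ∀ e2 < S, ∀ e3 < R,
      |(f : ℤ) * cA x y z e2 e3 - (g : ℤ) * cB x y z e2 e3| < 2 ^ (w - 1))
    {e1 e2 e3 x y z : ℕ} (h12 : e2 < e1) (h23 : e3 < e2) (h3x : x < e3) (hxy : y < x)
    (hyz : z < y) (hsum : e1 + e2 + e3 + x + y + z = D) (hx : x < X1) (h3 : e3 < R) :
    0 ≤ (f : ℤ) * cA x y z e2 e3 - (g : ℤ) * cB x y z e2 e3 := by
  unfold chk at hchk
  rw [allB_iff] at hchk
  have h4 := hchk x hx
  rw [allB_iff] at h4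
  have h5 := h4 y hxy
  rw [allB_iff] at h5
  have h6 := h5 z hyz
  rw [fb_eq, fb_eq, fb_eq] at h6
  have h7 := chkRow_sound h6 h12 h23 h3x (by
    change e1 + e2 + e3 = D - (x + y + z)
    omega) h3
  set c : ℕ → ℕ → ℤ := fun e2 e3 => (f : ℤ) * cA x y z e2 e3 - (g : ℤ) * cB x y z e2 e3 with hc
  have hrow : RowMod w S R (f * A x y z + g * (2 ^ (w * (S * R)) - B x y z)) c := by
    refine ⟨R, le_rfl, ?_⟩
    rw [sum_rows]
    have hA1 := row_trunc (hA x y z hyz hxy hx)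
    have hB1 := row_trunc (hB x y z hyz hxy hx)
    have h8 : ev (2 ^ w) (S * R) (flat S c) =
        (f : ℤ) * ev (2 ^ w) (S * R) (flat S (cA x y z)) -
          (g : ℤ) * ev (2 ^ w) (S * R) (flat S (cB x y z)) := by
      rw [← ev_smul, ← ev_smul, ← ev_sub]
      rfl
    rw [h8]
    push_cast [Nat.cast_sub (hB' x y z hyz hxy hx)]
    have h9 : (f : ℤ) * (A x y z) + g * (2 ^ (w * (S * R)) - (B x y z : ℤ)) =
        ((f : ℤ) * (A x y z) - g * (B x y z)) + 2 ^ (w * (S * R)) * g := by ring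
    rw [h9]
    have h10 : ((f : ℤ) * (A x y z) - g * (B x y z)) ≡
        (f : ℤ) * ev (2 ^ w) (S * R) (flat S (cA x y z)) -
          (g : ℤ) * ev (2 ^ w) (S * R) (flat S (cB x y z)) [ZMOD 2 ^ (w * (S * R))] :=
      Int.ModEq.sub (Int.ModEq.mul_left _ hA1) (Int.ModEq.mul_left _ hB1)
    refine Int.ModEq.trans ?_ h10
    exact Int.modEq_add_fac_self ..
  have h11 := sign_bit (by omega) hrow (fun a ha b hb => by
    have h12 := abs_lt.1 (hbd x y z hyz hxy hx a ha b hb)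
    exact ⟨h12.1.le, h12.2⟩) (e2 := e2) (e3 := e3) (by omega) h3
  exact h11.1 h7

end Vale.Agent.P181.H51
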