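import Mathlib

set_option autoImplicit false

/-! Digit vectors packed into one integer, base `2 ^ w`. -/

namespace Vale.Agent.P181.H51

open Finset

/-- The value of a digit vector. -/
def ev (X : ℤ) (L : ℕ) (d : ℕ → ℤ) : ℤ := ∑ i ∈ range L, d i * X ^ i

lemma ev_succ (X : ℤ) (L : ℕ) (d : ℕ → ℤ) :
    ev X (L + 1) d = d 0 + X * ev X L (fun i => d (i + 1)) := by
  unfold ev
  rw [Finset.sum_range_succ', Finset.mul_sum]
  simp only [pow_zero, mul_one]
  rw [add_comm]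
  congr 1
  apply Finset.sum_congr rfl
  intro i _
  ring

lemma ev_add (X : ℤ) (L : ℕ) (d e : ℕ → ℤ) :
    ev X L (fun i => d i + e i) = ev X L d + ev X L e := by
  unfold ev
  rw [← Finset.sum_add_distrib]
  apply Finset.sum_congr rfl
  intro i _
  ring

lemma ev_smul (X : ℤ) (L : ℕ) (n : ℤ) (d : ℕ → ℤ) :
    ev X L (fun i => n * d i) = n * ev X L d := by
  unfold ev
  rw [Finset.mul_sum]
  apply Finset.sum_congr rfl
  intro i _
  ring

lemma ev_sub (X : ℤ) (L : ℕ) (d e : ℕ → ℤ) :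
    ev X L (fun i => d i - e i) = ev X L d - ev X L e := by
  unfold ev
  rw [← Finset.sum_sub_distrib]
  apply Finset.sum_congr rfl
  intro i _
  ring

/-- Balanced digits are determined by the residue. -/
theorem ev_unique {X : ℤ} (hX : 0 < X) (L : ℕ) : ∀ (c : ℕ → ℤ), (∀ i < L, |c i| < X) →
    X ^ L ∣ ev X L c → ∀ i < L, c i = 0 := by
  induction L with
  | zero => intro c _ _ i hi; omega
  | succ L ih =>
    intro c hc h
    rw [ev_succ] at h
    have h0 : c 0 = 0 := by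
      have h1 : X ∣ c 0 := by
        have h2 : X ∣ c 0 + X * ev X L (fun i => c (i + 1)) :=
          (dvd_pow_self X (Nat.succ_ne_zero L)).trans h
        exact (Int.dvd_add_left (Dvd.intro _ rfl)).1 h2
      exact Int.eq_zero_of_abs_lt_dvd h1 (hc 0 (Nat.succ_pos L))
    rw [h0, zero_add, pow_succ, mul_comm (X ^ L) X] at h
    have h3 : X ^ L ∣ ev X L (fun i => c (i + 1)) :=
      Int.dvd_of_mul_dvd_mul_left hX.ne' h
    have h4 := ih (fun i => c (i + 1)) (fun i hi => hc (i + 1) (by omega)) h3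
    intro i hi
    rcases Nat.eq_zero_or_pos i with h5 | h5
    · rw [h5, h0]
    · obtain ⟨j, rfl⟩ : ∃ j, i = j + 1 := ⟨i - 1, by omega⟩
      exact h4 j (by omega)

/-- Digit vectors of natural numbers. -/
def nev (w L : ℕ) (e : ℕ → ℕ) : ℕ := ∑ i ∈ range L, e i * 2 ^ (w * i)

lemma nev_zero (w : ℕ) (e : ℕ → ℕ) : nev w 0 e = 0 := rfl

lemma nev_succ (w L : ℕ) (e : ℕ → ℕ) :
    nev w (L + 1) e = 2 ^ w * nev w L (fun i => e (i + 1)) + e 0 := by
  unfold nev
  rw [Finset.sum_range_succ', Finset.mul_sum]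
  simp only [mul_zero, pow_zero, mul_one]
  congr 1
  apply Finset.sum_congr rfl
  intro i _
  ring

lemma nev_lt (w L : ℕ) : ∀ (e : ℕ → ℕ), (∀ i < L, e i < 2 ^ w) → nev w L e < 2 ^ (w * L) := by
  induction L with
  | zero => intro e _; simp [nev_zero]
  | succ L ih =>
    intro e he
    rw [nev_succ]
    have h1 := ih (fun i => e (i + 1)) (fun i hi => he (i + 1) (by omega))
    have h2 := he 0 (by omega)
    calc 2 ^ w * nev w L (fun i => e (i + 1)) + e 0
        < 2 ^ w * nev w L (fun i => e (i + 1)) + 2 ^ w := by omega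
      _ = 2 ^ w * (nev w L (fun i => e (i + 1)) + 1) := by ring
      _ ≤ 2 ^ w * 2 ^ (w * L) := Nat.mul_le_mul_left _ h1
      _ = 2 ^ (w * (L + 1)) := by rw [← pow_add]; congr 1; ring

lemma testBit_nev (w L : ℕ) : ∀ (e : ℕ → ℕ), (∀ i < L, e i < 2 ^ w) → ∀ i < L, ∀ j < w,
    (nev w L e).testBit (w * i + j) = (e i).testBit j := by
  induction L with
  | zero => intro e _ i hi; omega
  | succ L ih =>
    intro e he i hi j hj
    rw [nev_succ, Nat.testBit_two_pow_mul_add _ (he 0 (by omega))]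
    rcases Nat.eq_zero_or_pos i with h | h
    · subst h
      simp [hj]
    · obtain ⟨k, rfl⟩ : ∃ k, i = k + 1 := ⟨i - 1, by omega⟩
      have h1 : ¬ (w * (k + 1) + j < w) := by
        rw [Nat.mul_succ]; omega
      have h2 : w * (k + 1) + j - w = w * k + j := by
        rw [Nat.mul_succ]; omega
      rw [if_neg h1, h2]
      exact ih (fun i => e (i + 1)) (fun i hi => he (i + 1) (by omega)) k (by omega) j hj

lemma cast_nev (w L : ℕ) (e : ℕ → ℕ) :
    ((nev w L e : ℕ) : ℤ) = ev (2 ^ w) L (fun i => (e i : ℤ)) := by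
  unfold nev ev
  push_cast
  apply Finset.sum_congr rfl
  intro i _
  rw [pow_mul]

/-- Every number below `2 ^ (w * L)` is a digit vector. -/
lemma exists_nev (w L : ℕ) : ∀ Y : ℕ, Y < 2 ^ (w * L) →
    ∃ e : ℕ → ℕ, (∀ i, e i < 2 ^ w) ∧ Y = nev w L e := by
  induction L with
  | zero =>
    intro Y hY
    refine ⟨fun _ => 0, fun _ => by positivity, ?_⟩
    rw [nev_zero]
    simpa using hY
  | succ L ih =>
    intro Y hY
    obtain ⟨e, he, hY2⟩ := ih (Y / 2 ^ w) (by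
      apply Nat.div_lt_of_lt_mul
      rw [← pow_add]
      calc Y < 2 ^ (w * (L + 1)) := hY
        _ = 2 ^ (w + w * L) := by congr 1; ring)
    refine ⟨fun i => Nat.casesOn i (Y % 2 ^ w) e, ?_, ?_⟩
    · intro i
      cases i with
      | zero => exact Nat.mod_lt _ (by positivity)
      | succ i => exact he i
    · rw [nev_succ]
      change Y = 2 ^ w * nev w L e + Y % 2 ^ w
      rw [← hY2]
      exact (Nat.div_add_mod Y (2 ^ w)).symm

/-- The constant digit vector. -/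
def ones (w L : ℕ) : ℕ := (2 ^ (w * L) - 1) / (2 ^ w - 1)

lemma nev_const (w L c : ℕ) (hw : 0 < w) : nev w L (fun _ => c) = c * ones w L := by
  unfold nev ones
  rw [← Finset.mul_sum]
  congr 1
  have h : 2 ≤ 2 ^ w := by
    calc 2 = 2 ^ 1 := rfl
      _ ≤ 2 ^ w := Nat.pow_le_pow_right (by norm_num) hw
  have h1 := Nat.geomSum_eq h L
  simp only [pow_mul]
  exact h1

lemma ones_cast (w L c : ℕ) (hw : 0 < w) :
    ((c * ones w L : ℕ) : ℤ) = ev (2 ^ w) L (fun _ => (c : ℤ)) := by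
  rw [← nev_const w L c hw, cast_nev]

/-- A residue is the packed vector of its digits. -/
theorem mod_eq_nev {w L u : ℕ} {e : ℕ → ℕ} (he : ∀ i < L, e i < 2 ^ w)
    (hu : (u : ℤ) ≡ ev (2 ^ w) L (fun i => (e i : ℤ)) [ZMOD 2 ^ (w * L)]) :
    u % 2 ^ (w * L) = nev w L e := by
  have h1 : nev w L e % 2 ^ (w * L) = nev w L e := Nat.mod_eq_of_lt (nev_lt w L e he)
  rw [← h1]
  rw [← cast_nev] at hu
  have h2 : ((2 ^ (w * L) : ℕ) : ℤ) = 2 ^ (w * L) := by push_cast; rfl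
  rw [← h2] at hu
  exact (Int.natCast_modEq_iff.1 hu)

/-- The digits of a shifted residue. -/
theorem shift_eq_nev {w L u v : ℕ} (hw : 0 < w) {d : ℕ → ℤ}
    (hd : ∀ i < L, -2 ^ v ≤ d i ∧ d i + 2 ^ v < 2 ^ w)
    (hu : (u : ℤ) ≡ ev (2 ^ w) L d [ZMOD 2 ^ (w * L)]) :
    (u + 2 ^ v * ones w L) % 2 ^ (w * L) = nev w L (fun i => (d i + 2 ^ v).toNat) := by
  have hc : ∀ i < L, (((d i + 2 ^ v).toNat : ℕ) : ℤ) = d i + 2 ^ v := fun i hi =>
    Int.toNat_of_nonneg (by linarith [(hd i hi).1])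
  apply mod_eq_nev
  · intro i hi
    have h1 := hc i hi
    have h2 := (hd i hi).2
    rw [← h1] at h2
    exact_mod_cast h2
  · have h3 : ev (2 ^ w) L (fun i => (((d i + 2 ^ v).toNat : ℕ) : ℤ)) =
        ev (2 ^ w) L d + ev (2 ^ w) L (fun _ => (2 ^ v : ℤ)) := by
      rw [← ev_add]
      unfold ev
      apply Finset.sum_congr rfl
      intro i hi
      simp only [hc i (Finset.mem_range.1 hi)]
    rw [h3]
    push_cast
    apply Int.ModEq.add hu
    have h4 := ones_cast w L (2 ^ v) hw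
    push_cast at h4
    rw [h4]

lemma testBit_top {w x : ℕ} (hw : 0 < w) (hx : x < 2 ^ w) :
    x / 2 ^ (w - 1) % 2 = 1 ↔ 2 ^ (w - 1) ≤ x := by
  have h1 : 2 ^ w = 2 * 2 ^ (w - 1) := by
    rw [← pow_succ']; congr 1; omega
  have h2 : x / 2 ^ (w - 1) < 2 := Nat.div_lt_of_lt_mul (by rw [mul_comm, ← h1]; exact hx)
  have h3 : 2 ^ (w - 1) ≤ x ↔ 1 ≤ x / 2 ^ (w - 1) := by
    rw [Nat.le_div_iff_mul_le (by positivity), one_mul]
  rw [h3]
  generalize x / 2 ^ (w - 1) = q at h2 ⊢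
  omega

/-- **The sign of a digit is a bit.** -/
theorem sign_bit_ev {w L u : ℕ} (hw : 0 < w) {d : ℕ → ℤ}
    (hd : ∀ i < L, -2 ^ (w - 1) ≤ d i ∧ d i < 2 ^ (w - 1))
    (hu : (u : ℤ) ≡ ev (2 ^ w) L d [ZMOD 2 ^ (w * L)]) (i : ℕ) (hi : i < L) :
    (((u + 2 ^ (w - 1) * ones w L) % 2 ^ (w * L)) >>> (w * i + (w - 1))) % 2 = 1 ↔ 0 ≤ d i := by
  have h1 : (2 : ℤ) ^ w = 2 * 2 ^ (w - 1) := by
    rw [← pow_succ']; congr 1; omega
  have hd' : ∀ i < L, -2 ^ (w - 1) ≤ d i ∧ d i + 2 ^ (w - 1) < 2 ^ w := by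
    intro i hi
    have := hd i hi
    constructor <;> linarith [this.1, this.2]
  rw [shift_eq_nev hw hd' hu]
  set e : ℕ → ℕ := fun i => (d i + 2 ^ (w - 1)).toNat with he
  have hc : ((e i : ℕ) : ℤ) = d i + 2 ^ (w - 1) :=
    Int.toNat_of_nonneg (by linarith [(hd i hi).1])
  have hlt : ∀ i < L, e i < 2 ^ w := by
    intro i hi
    have h2 : ((e i : ℕ) : ℤ) = d i + 2 ^ (w - 1) :=
      Int.toNat_of_nonneg (by linarith [(hd i hi).1])
    have h3 := (hd' i hi).2
    rw [← h2] at h3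
    exact_mod_cast h3
  have h4 := testBit_nev w L e hlt i hi (w - 1) (by omega)
  rw [Nat.testBit_eq_decide_div_mod_eq, Nat.testBit_eq_decide_div_mod_eq, decide_eq_decide] at h4
  rw [Nat.shiftRight_eq_div_pow, h4, testBit_top hw (hlt i hi)]
  have h5 : (2 ^ (w - 1) ≤ e i) ↔ ((2 : ℤ) ^ (w - 1) ≤ (e i : ℤ)) := by
    constructor
    · intro h; exact_mod_cast h
    · intro h; exact_mod_cast h
  rw [h5, hc]
  constructor <;> intro h <;> linarith

lemma testBit_mask {w v j : ℕ} (hv : v + 1 ≤ w) (h1 : v + 1 ≤ j) (h2 : j < w) :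
    (2 ^ w - 2 ^ (v + 1)).testBit j = true := by
  have h3 : 2 ^ w - 2 ^ (v + 1) = (2 ^ (w - (v + 1)) - 1) * 2 ^ (v + 1) := by
    rw [Nat.sub_mul, one_mul, ← pow_add]
    congr 2
    omega
  rw [h3, Nat.testBit_mul_two_pow, Nat.testBit_two_pow_sub_one]
  simp only [Bool.and_eq_true, decide_eq_true_eq]
  constructor
  · exact h1
  · omega

/-- **The digit test.** -/
theorem digit_test_ev {w L u v : ℕ} (hv : v + 1 ≤ w) {d : ℕ → ℤ}
    (hd : ∀ i < L, |d i| < 2 ^ (w - 1))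
    (hu : (u : ℤ) ≡ ev (2 ^ w) L d [ZMOD 2 ^ (w * L)])
    (ht : ((u + 2 ^ v * ones w L) % 2 ^ (w * L)) &&& ((2 ^ w - 2 ^ (v + 1)) * ones w L) = 0)
    (i : ℕ) (hi : i < L) : -2 ^ v ≤ d i ∧ d i < 2 ^ v := by
  have hw : 0 < w := by omega
  obtain ⟨e, he, hY⟩ := exists_nev w L ((u + 2 ^ v * ones w L) % 2 ^ (w * L))
    (Nat.mod_lt _ (by positivity))
  have hmlt : 2 ^ w - 2 ^ (v + 1) < 2 ^ w := by
    have h1 : 0 < 2 ^ (v + 1) := by positivity
    have h2 : 0 < 2 ^ w := by positivity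
    omega
  have hsmall : ∀ i < L, e i < 2 ^ (v + 1) := by
    intro i hi
    apply Nat.lt_pow_two_of_testBit
    intro j hj
    rcases Nat.lt_or_ge j w with h | h
    · rw [hY, ← nev_const w L _ hw] at ht
      have h1 := congrArg (fun z => z.testBit (w * i + j)) ht
      simp only [Nat.testBit_land, Nat.zero_testBit] at h1
      rw [testBit_nev w L e (fun i _ => he i) i hi j h,
        testBit_nev w L _ (fun _ _ => hmlt) i hi j h, testBit_mask hv hj h, Bool.and_true] at h1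
      exact h1
    · exact Nat.testBit_lt_two_pow (lt_of_lt_of_le (he i) (Nat.pow_le_pow_right (by norm_num) h))
  have hX : (0 : ℤ) < 2 ^ w := by positivity
  have h2w : (2 : ℤ) ^ w = 2 * 2 ^ (w - 1) := by
    rw [← pow_succ']; congr 1; omega
  have hvw : (2 : ℤ) ^ v ≤ 2 ^ (w - 1) := pow_le_pow_right₀ (by norm_num) (by omega)
  have hv1 : (2 : ℤ) ^ (v + 1) = 2 * 2 ^ v := pow_succ' 2 v
  have hcong : (2 ^ w : ℤ) ^ L ∣ ev (2 ^ w) L (fun i => (e i : ℤ) - (d i + 2 ^ v)) := by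
    rw [ev_sub, ← pow_mul]
    have h3 : ev (2 ^ w) L (fun i => d i + 2 ^ v) =
        ev (2 ^ w) L d + ((2 ^ v * ones w L : ℕ) : ℤ) := by
      rw [ones_cast w L (2 ^ v) hw]
      push_cast
      rw [← ev_add]
    rw [h3, ← cast_nev, ← hY]
    apply Int.ModEq.dvd
    have h4 : (((u + 2 ^ v * ones w L) % 2 ^ (w * L) : ℕ) : ℤ) ≡
        ((u + 2 ^ v * ones w L : ℕ) : ℤ) [ZMOD 2 ^ (w * L)] := by
      push_cast
      exact Int.mod_modEq _ _
    refine Int.ModEq.trans ?_ h4.symm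
    push_cast
    exact Int.ModEq.add_right _ hu.symm
  have h6 := ev_unique hX L _ (fun i hi => by
    have h7 : (e i : ℤ) < 2 ^ (v + 1) := by exact_mod_cast hsmall i hi
    have h8 : (0 : ℤ) ≤ e i := Int.natCast_nonneg _
    have h9 := abs_lt.1 (hd i hi)
    rw [abs_lt]
    constructor <;> linarith [h9.1, h9.2]) hcong i hi
  have h7 : (e i : ℤ) < 2 ^ (v + 1) := by exact_mod_cast hsmall i hi
  have h8 : (0 : ℤ) ≤ e i := Int.natCast_nonneg _
  constructor <;> linarith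

end Vale.Agent.P181.H51
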