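import Vale.Agent.P181.H51.Run
import Vale.Agent.P181.H605.ProgB

set_option autoImplicit false

/-!
# P181, `a = 6`: the left tables of `H605.ProgB` with running sums (kernel part)
-/

noncomputable section

namespace Vale.Agent.P181.H51.LB

open Vale.Agent.P181.H788 Vale.Agent.P181.H605.LB

/-- the inner sum of `pz` -/
def pI (w S K : Nat) (F : Tb) (x z d y : Nat) : Nat :=
  s2 z (Nat.mul (hv w S K 1 d) (F x y 0))
    (@Nat.rec (fun _ => Nat) (Nat.mul (hv w S K 1 0) (F x y 1)) (fun m _ =>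
      Nat.add (Nat.mul (hv w S K 1 d) (F x y 1)) (Nat.mul (hv w S K 1 m) (F x y 0))) d)

/-- the inner term of `cz` -/
def cI (w S K k : Nat) (F : Tb) (x z d y : Nat) : Nat :=
  Nat.mul (hv w S K k d) (sg K F x y z)

/-- the middle sum of `pz` -/
def pJ (w S K : Nat) (F : Tb) (z x d y : Nat) : Nat :=
  @Nat.rec (fun _ => Nat) 0 (fun n _ => js 1 (pI w S K F x z) n d y)
    (mn (Nat.sub y z) (Nat.succ d))

/-- the middle sum of `cz` -/
def cJ (w S K k : Nat) (F : Tb) (z x d y : Nat) : Nat :=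
  fc (mn (Nat.div y k) d) fun n => js k (cI w S K k F x z) n d y

/-- `pz` -/
def pzR (w S K d : Nat) (F : Tb) (x y z : Nat) : Nat :=
  sn (fun a => fc (Nat.sub x a) fun x' => fc (Nat.sub d a) fun d' => pJ w S K F z x' d' y)
    (mn (Nat.sub x y) (Nat.succ d))

/-- `cz` -/
def czR (w S K k d : Nat) (F : Tb) (x y z : Nat) : Nat :=
  sp (fun a => fc (Nat.sub x (Nat.mul k a)) fun x' => fc (Nat.sub d a) fun d' =>
    cJ w S K k F z x' d' y) (mn (Nat.div x k) d)

/-- level 0 -/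
def U0 (w S K : Nat) : Tb := row0 w S K

def f1 (w S R K v b : Nat) : Nat → Nat := fun x =>
  dv w K (Nat.mul S R) 1 v (pzR w S K b (U0 w S K) x 1 0)
def g1 (w S R K v b : Nat) : Nat → Nat → Nat := ey w S R K v (Nat.add 15 b) (f1 w S R K v b)
def U1 (w S R K v b : Nat) : Tb := ez w S R K v (Nat.add 15 b) (g1 w S R K v b)

def f2 (w S R K v b : Nat) : Nat → Nat := fun x =>
  dv w K (Nat.mul S R) 2 v (Nat.add (pzR w S K b (U1 w S R K v b) x 1 0)
    (czR w S K 2 b (U0 w S K) x 1 0))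
def g2 (w S R K v b : Nat) : Nat → Nat → Nat :=
  ey w S R K v (Nat.add 15 (Nat.mul 2 b)) (f2 w S R K v b)
def U2 (w S R K v b : Nat) : Tb := ez w S R K v (Nat.add 15 (Nat.mul 2 b)) (g2 w S R K v b)

def f3 (w S R K v b : Nat) : Nat → Nat := fun x =>
  dv w K (Nat.mul S R) 3 v (Nat.add (pzR w S K b (U2 w S R K v b) x 1 0)
    (Nat.add (czR w S K 2 b (U1 w S R K v b) x 1 0) (czR w S K 3 b (U0 w S K) x 1 0)))
def g3 (w S R K v b : Nat) : Nat → Nat → Nat :=
  ey w S R K v (Nat.add 15 (Nat.mul 3 b)) (f3 w S R K v b)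
def U3 (w S R K v b : Nat) : Tb := ez w S R K v (Nat.add 15 (Nat.mul 3 b)) (g3 w S R K v b)

def f4 (w S R K v b : Nat) : Nat → Nat := fun x =>
  dv w K (Nat.mul S R) 4 v (Nat.add (pzR w S K b (U3 w S R K v b) x 1 0)
    (Nat.add (czR w S K 2 b (U2 w S R K v b) x 1 0) (Nat.add (czR w S K 3 b (U1 w S R K v b) x 1 0)
      (czR w S K 4 b (U0 w S K) x 1 0))))
def g4 (w S R K v b : Nat) : Nat → Nat → Nat :=
  ey w S R K v (Nat.add 15 (Nat.mul 4 b)) (f4 w S R K v b)
def U4 (w S R K v b : Nat) : Tb := ez w S R K v (Nat.add 15 (Nat.mul 4 b)) (g4 w S R K v b)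

def g5 (w S R K v b : Nat) : Nat → Nat → Nat := fun x y =>
  dv w K (Nat.mul S R) 5 v (Nat.add (pzR w S K b (U4 w S R K v b) x y 0)
    (Nat.add (czR w S K 2 b (U3 w S R K v b) x y 0) (Nat.add (czR w S K 3 b (U2 w S R K v b) x y 0)
      (Nat.add (czR w S K 4 b (U1 w S R K v b) x y 0) (czR w S K 5 b (U0 w S K) x y 0)))))
def U5 (w S R K v b : Nat) : Tb := ez w S R K v (Nat.add 15 (Nat.mul 5 b)) (g5 w S R K v b)

def U6 (w S R K v b : Nat) : Tb := fun x y z =>
  dv w K (Nat.mul S R) 6 v (Nat.add (pzR w S K b (U5 w S R K v b) x y z)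
    (Nat.add (czR w S K 2 b (U4 w S R K v b) x y z) (Nat.add (czR w S K 3 b (U3 w S R K v b) x y z)
      (Nat.add (czR w S K 4 b (U2 w S R K v b) x y z)
        (Nat.add (czR w S K 5 b (U1 w S R K v b) x y z) (czR w S K 6 b (U0 w S K) x y z))))))

/-- the digit tests of the levels `1, ..., 5`, rows `x < X` -/
def testsR (w S R K v b X u1 u2 u3 u4 u5 : Nat) : Bool :=
  bc (allB (fun x => fb (Nat.add 2 x) fun x =>
      @Bool.rec (fun _ => Bool) true
        (bc (dt w K (Nat.mul S R) u1 (f1 w S R K v b x)) (bc (dt w K (Nat.mul S R) u2 (f2 w S R K v b x))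
        (bc (dt w K (Nat.mul S R) u3 (f3 w S R K v b x)) (dt w K (Nat.mul S R) u4 (f4 w S R K v b x)))))
        (Nat.ble (Nat.add (Nat.mul 4 x) 1) (Nat.add (Nat.mul 6 b) 9))) (Nat.sub X 2))
    (allQ X (Nat.add (Nat.mul 6 b) 9) fun x y => @Bool.rec (fun _ => Bool) true
      (dt w K (Nat.mul S R) u5 (g5 w S R K v b x y)) (Nat.ble 1 y))

end Vale.Agent.P181.H51.LB
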