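import Vale.Agent.P181.H51.RunS
import Vale.Agent.P181.H51.ProgBR
import Vale.Agent.P181.H605.LeftB

set_option autoImplicit false

/-!
# P181: the left tables with running sums are those of `H605.ProgB`
-/

namespace Vale.Agent.P181.H51.LB

open Finset Vale.Agent.P181.H605 Vale.Agent.P181.H788 Vale.Agent.P181.H605.LB

lemma sm1_sn (f : ℕ → ℕ) (n : ℕ) : sm1 f n = ∑ i ∈ range n, f i := by
  cases n with
  | zero => rfl
  | succ n => exact sp_eq f n

lemma pJ_eq (w S K : ℕ) (F : Tb) (z x d y : ℕ) : pJ w S K F z x d y =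
    ∑ b ∈ range (mn (Nat.sub y z) (Nat.succ d)), pI w S K F x z (d - b) (y - b) := by
  unfold pJ
  cases mn (Nat.sub y z) (Nat.succ d) with
  | zero => rfl
  | succ n =>
    change js 1 (pI w S K F x z) n d y = _
    rw [js_eq]
    refine sum_congr rfl fun b _ => ?_
    rw [one_mul]

lemma cJ_eq (w S K k : ℕ) (F : Tb) (z x d y : ℕ) : cJ w S K k F z x d y =
    ∑ b ∈ range (Nat.succ (mn (Nat.div y k) d)), cI w S K k F x z (d - b) (y - k * b) := by
  unfold cJ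
  rw [fc_eq, js_eq]

theorem pzR_fun : pzR = pz := by
  funext w S K d F x y z
  unfold pzR pz
  rw [sn_eq, sm1_sn]
  refine sum_congr rfl fun a _ => ?_
  rw [fc_eq, fc_eq, fc_eq, fc_eq, pJ_eq, sm1_sn]
  refine sum_congr rfl fun b _ => ?_
  rw [fc_eq, fc_eq]
  rfl

theorem czR_fun : czR = cz := by
  funext w S K k d F x y z
  unfold czR cz
  rw [sp_eq, sm1_sn]
  refine sum_congr rfl fun a _ => ?_
  rw [fc_eq, fc_eq, fc_eq, fc_eq, cJ_eq, sm1_sn]
  refine sum_congr rfl fun b _ => ?_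
  rw [fc_eq, fc_eq]
  rfl

lemma U0_eq (w S K : ℕ) : U0 w S K = T0 w S K := rfl

lemma f1_eq (w S R K v b : ℕ) : f1 w S R K v b = d1 w S R K v b := by
  unfold f1 d1
  rw [pzR_fun, U0_eq]

lemma U1_eq (w S R K v b : ℕ) : U1 w S R K v b = T1 w S R K v b := by
  unfold U1 T1 g1 e1
  rw [f1_eq]

lemma f2_eq (w S R K v b : ℕ) : f2 w S R K v b = d2 w S R K v b := by
  unfold f2 d2
  rw [pzR_fun, czR_fun, U0_eq, U1_eq]

lemma U2_eq (w S R K v b : ℕ) : U2 w S R K v b = T2 w S R K v b := by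
  unfold U2 T2 g2 e2
  rw [f2_eq]

lemma f3_eq (w S R K v b : ℕ) : f3 w S R K v b = d3 w S R K v b := by
  unfold f3 d3
  rw [pzR_fun, czR_fun, U0_eq, U1_eq, U2_eq]

lemma U3_eq (w S R K v b : ℕ) : U3 w S R K v b = T3 w S R K v b := by
  unfold U3 T3 g3 e3
  rw [f3_eq]

lemma f4_eq (w S R K v b : ℕ) : f4 w S R K v b = d4 w S R K v b := by
  unfold f4 d4
  rw [pzR_fun, czR_fun, U0_eq, U1_eq, U2_eq, U3_eq]

lemma U4_eq (w S R K v b : ℕ) : U4 w S R K v b = T4 w S R K v b := by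
  unfold U4 T4 g4 e4
  rw [f4_eq]

lemma g5_eq (w S R K v b : ℕ) : g5 w S R K v b = e5 w S R K v b := by
  unfold g5 e5
  rw [pzR_fun, czR_fun, U0_eq, U1_eq, U2_eq, U3_eq, U4_eq]

lemma U5_eq (w S R K v b : ℕ) : U5 w S R K v b = T5 w S R K v b := by
  unfold U5 T5
  rw [g5_eq]

/-- **The tables agree.** -/
theorem U6_eq (w S R K v b : ℕ) : U6 w S R K v b = T6 w S R K v b := by
  unfold U6 T6
  rw [pzR_fun, czR_fun, U0_eq, U1_eq, U2_eq, U3_eq, U4_eq, U5_eq]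

/-- **The tests agree.** -/
theorem testsR_eq (w S R K v b X u1 u2 u3 u4 u5 : ℕ) :
    testsR w S R K v b X u1 u2 u3 u4 u5 = tests w S R K v b X u1 u2 u3 u4 u5 := by
  unfold testsR tests
  rw [f1_eq, f2_eq, f3_eq, f4_eq, g5_eq]

end Vale.Agent.P181.H51.LB
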