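import Vale.Agent.P181.H51.Val
import Vale.Agent.P181.H177.Row0

set_option autoImplicit false

/-!
# P181: unscaled levels with small digits

The rows of the levels of `H605`, computed with division by the level, and digit bounds by
induction over the levels.
-/

namespace Vale.Agent.P181.H51

open Finset MvPolynomial Vale.Agent.P181.H605 Vale.Agent.P181.H788

/-- The degree of level `N`. -/
def dg (N a : ℕ) : ℕ := 15 + N * a

/-- The coefficient at `(e1, e2, e3, x, y, z)`, `e1` from the degree. -/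
noncomputable def cf (N a e2 e3 x y z : ℕ) : ℤ :=
  if x + y + z + e2 + e3 ≤ dg N a then
    coeff (fs ![dg N a - (x + y + z + e2 + e3), e2, e3, x, y, z]) (Fgen 6 N a) else 0

lemma cf_swap1 (N a e2 e3 x y z : ℕ) : cf N a e2 e3 y x z = - cf N a e2 e3 x y z := by
  unfold cf
  have h0 : y + x + z + e2 + e3 = x + y + z + e2 + e3 := by ring
  rw [h0]
  split_ifs with h
  · have h1 := coeff_Fgen_perm 6 N a (Equiv.swap 3 4)
      ![dg N a - (x + y + z + e2 + e3), e2, e3, x, y, z]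
    rw [Equiv.Perm.sign_swap (by decide)] at h1
    have h2 : (fun i => ![dg N a - (x + y + z + e2 + e3), e2, e3, x, y, z]
        ((Equiv.swap (3 : Fin 6) 4) i)) = ![dg N a - (x + y + z + e2 + e3), e2, e3, y, x, z] := by
      funext i
      fin_cases i <;> rfl
    rw [h2] at h1
    rw [h1]
    simp
  · simp

lemma cf_swap2 (N a e2 e3 x y z : ℕ) : cf N a e2 e3 x z y = - cf N a e2 e3 x y z := by
  unfold cf
  have h0 : x + z + y + e2 + e3 = x + y + z + e2 + e3 := by ring
  rw [h0]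
  split_ifs with h
  · have h1 := coeff_Fgen_perm 6 N a (Equiv.swap 4 5)
      ![dg N a - (x + y + z + e2 + e3), e2, e3, x, y, z]
    rw [Equiv.Perm.sign_swap (by decide)] at h1
    have h2 : (fun i => ![dg N a - (x + y + z + e2 + e3), e2, e3, x, y, z]
        ((Equiv.swap (4 : Fin 6) 5) i)) = ![dg N a - (x + y + z + e2 + e3), e2, e3, x, z, y] := by
      funext i
      fin_cases i <;> rfl
    rw [h2] at h1
    rw [h1]
    simp
  · simp

lemma cf_e1 (N a e2 e3 x z : ℕ) : cf N a e2 e3 x x z = 0 := by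
  have := cf_swap1 N a e2 e3 x x z
  omega

lemma cf_e2 (N a e2 e3 x y : ℕ) : cf N a e2 e3 x y y = 0 := by
  have := cf_swap2 N a e2 e3 x y y
  omega

lemma cf_e3 (N a e2 e3 x y : ℕ) : cf N a e2 e3 x y x = 0 := by
  rw [cf_swap2, cf_e1, neg_zero]

/-- A down-closed set of rows. -/
def Down (Rg : ℕ → ℕ → ℕ → Prop) : Prop :=
  ∀ x y z x' y' z', Rg x y z → x' ≤ x → y' ≤ y → z' ≤ z → Rg x' y' z'

/-- The digits of level `N` are bounded by `B` in the rows of `Rg`. -/
def BOn (S R N a : ℕ) (Rg : ℕ → ℕ → ℕ → Prop) (B : ℕ) : Prop :=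
  ∀ x y z, z < y → y < x → Rg x y z → ∀ e2 < S, ∀ e3 < R, |cf N a e2 e3 x y z| ≤ B

/-- Unsorted places. -/
lemma BOn.unsorted {S R N a B : ℕ} {Rg : ℕ → ℕ → ℕ → Prop} (h : BOn S R N a Rg B)
    (hd : Down Rg) {x y z x' y' z' : ℕ} (hR : Rg x y z) (hzy : z < y) (hyx : y < x)
    (hx : x' ≤ x) (hy : y' ≤ y) (hz : z' ≤ z) {e2 e3 : ℕ} (h2 : e2 < S) (h3 : e3 < R) :
    |cf N a e2 e3 x' y' z'| ≤ B := by
  have h0 : (0 : ℤ) ≤ B := Int.natCast_nonneg B
  rcases lt_trichotomy x' y' with hxy | rfl | hxy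
  · rcases lt_trichotomy z' x' with hzx | rfl | hzx
    · have h4 := h y' x' z' hzx hxy (hd x y z _ _ _ hR (by omega) (by omega) (by omega)) e2 h2 e3 h3
      rwa [cf_swap1, abs_neg] at h4
    · rw [cf_e3, abs_zero]; exact h0
    · rcases lt_trichotomy z' y' with hzy' | rfl | hzy'
      · have h4 := h y' z' x' hzx hzy' (hd x y z _ _ _ hR (by omega) (by omega) (by omega))
          e2 h2 e3 h3
        rwa [cf_swap2, cf_swap1, neg_neg] at h4
      · rw [cf_e2, abs_zero]; exact h0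
      · have h4 := h z' y' x' hxy hzy' (hd x y z _ _ _ hR (by omega) (by omega) (by omega))
          e2 h2 e3 h3
        rwa [cf_swap1, cf_swap2, cf_swap1, neg_neg, abs_neg] at h4
  · rw [cf_e1, abs_zero]; exact h0
  · rcases lt_trichotomy z' y' with hzy' | rfl | hzy'
    · exact h x' y' z' hzy' hxy (hd x y z _ _ _ hR hx hy hz) e2 h2 e3 h3
    · rw [cf_e2, abs_zero]; exact h0
    · rcases lt_trichotomy z' x' with hzx | rfl | hzx
      · have h4 := h x' z' y' hzy' hzx (hd x y z _ _ _ hR (by omega) (by omega) (by omega))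
          e2 h2 e3 h3
        rwa [cf_swap2, abs_neg] at h4
      · rw [cf_e3, abs_zero]; exact h0
      · have h4 := h z' x' y' hxy hzx (hd x y z _ _ _ hR (by omega) (by omega) (by omega))
          e2 h2 e3 h3
        rwa [cf_swap1, cf_swap2, neg_neg] at h4

/-- The recursion for the coefficients. -/
lemma cf_rec (N a e2 e3 x y z : ℕ) (h : x + y + z + e2 + e3 ≤ dg N a) :
    (N : ℤ) * cf N a e2 e3 x y z = ∑ k ∈ range N, ∑ v ∈ piAntidiag (univ : Finset (Fin 6)) a,
      (if (k + 1) * v 0 ≤ dg N a - (x + y + z + e2 + e3) ∧ (k + 1) * v 1 ≤ e2 ∧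
          (k + 1) * v 2 ≤ e3 ∧ (k + 1) * v 3 ≤ x ∧ (k + 1) * v 4 ≤ y ∧ (k + 1) * v 5 ≤ z then
        cf (N - (k + 1)) a (e2 - (k + 1) * v 1) (e3 - (k + 1) * v 2) (x - (k + 1) * v 3)
          (y - (k + 1) * v 4) (z - (k + 1) * v 5) else 0) := by
  classical
  have h1 := congrArg (fun P => coeff (fs ![dg N a - (x + y + z + e2 + e3), e2, e3, x, y, z]) P)
    (Fgen_rec 6 N a)
  simp only [coeff_sum] at h1
  have h2 : coeff (fs ![dg N a - (x + y + z + e2 + e3), e2, e3, x, y, z])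
      ((N : MvPolynomial (Fin 6) ℤ) * Fgen 6 N a) = (N : ℤ) * cf N a e2 e3 x y z := by
    rw [← map_natCast (C : ℤ →+* MvPolynomial (Fin 6) ℤ), coeff_C_mul, cf, if_pos h]
  rw [h2] at h1
  rw [h1]
  refine Finset.sum_congr rfl fun k hk => ?_
  have hkN : k < N := Finset.mem_range.1 hk
  rw [H605.hk, Finset.sum_mul, coeff_sum, ← Finset.sum_coe_sort (piAntidiag univ a)]
  refine Finset.sum_congr rfl fun v _ => ?_
  rw [monomial_pow, one_pow, coeff_monomial_mul', one_mul]
  have hv := (mem_piAntidiag.1 v.2).1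
  rw [Fin.sum_univ_six] at hv
  have h3 : (k + 1) • fs v.1 ≤ fs ![dg N a - (x + y + z + e2 + e3), e2, e3, x, y, z] ↔
      ((k + 1) * v.1 0 ≤ dg N a - (x + y + z + e2 + e3) ∧ (k + 1) * v.1 1 ≤ e2 ∧
          (k + 1) * v.1 2 ≤ e3 ∧ (k + 1) * v.1 3 ≤ x ∧ (k + 1) * v.1 4 ≤ y ∧
          (k + 1) * v.1 5 ≤ z) := by
    constructor
    · intro h
      exact ⟨h 0, h 1, h 2, h 3, h 4, h 5⟩
    · rintro ⟨a0, a1, a2, a3, a4, a5⟩ i
      fin_cases i
      · exact a0
      · exact a1
      · exact a2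
      · exact a3
      · exact a4
      · exact a5
  rw [if_congr h3 rfl rfl]
  split_ifs with h4
  · obtain ⟨a0, a1, a2, a3, a4, a5⟩ := h4
    have hN : dg N a = dg (N - (k + 1)) a + (k + 1) * a := by
      unfold dg
      obtain ⟨m, rfl⟩ : ∃ m, N = m + (k + 1) := ⟨N - (k + 1), by omega⟩
      rw [Nat.add_sub_cancel]
      ring
    have hva : (k + 1) * a = (k + 1) * v.1 0 + (k + 1) * v.1 1 + (k + 1) * v.1 2 +
        (k + 1) * v.1 3 + (k + 1) * v.1 4 + (k + 1) * v.1 5 :=
      (congrArg (fun t => (k + 1) * t) hv).symm.trans (by ring)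
    have h5 : x - (k + 1) * v.1 3 + (y - (k + 1) * v.1 4) + (z - (k + 1) * v.1 5) +
        (e2 - (k + 1) * v.1 1) + (e3 - (k + 1) * v.1 2) ≤ dg (N - (k + 1)) a := by omega
    rw [cf, if_pos h5]
    congr 1
    ext i
    fin_cases i
    · change dg N a - (x + y + z + e2 + e3) - (k + 1) * v.1 0 =
        dg (N - (k + 1)) a - (x - (k + 1) * v.1 3 + (y - (k + 1) * v.1 4) +
          (z - (k + 1) * v.1 5) + (e2 - (k + 1) * v.1 1) + (e3 - (k + 1) * v.1 2))
      omega
    all_goals rfl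
  · rfl

/-- **The a priori bound of a level.** -/
theorem apriori {S R N a B' : ℕ} {Rg : ℕ → ℕ → ℕ → Prop} (hd : Down Rg) (hN : 0 < N) (B : ℕ → ℕ)
    (hB : ∀ j < N, BOn S R j a Rg (B j))
    (h : (a + 5).choose a * ∑ j ∈ range N, B j ≤ N * B' + (N - 1)) : BOn S R N a Rg B' := by
  intro x y z hzy hyx hR e2 h2 e3 h3
  by_cases hle : x + y + z + e2 + e3 ≤ dg N a
  · have h1 := cf_rec N a e2 e3 x y z hle
    have h4 : |(N : ℤ) * cf N a e2 e3 x y z| ≤
        ∑ k ∈ range N, ∑ _v ∈ piAntidiag (univ : Finset (Fin 6)) a, (B (N - (k + 1)) : ℤ) := by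
      rw [h1]
      refine (Finset.abs_sum_le_sum_abs _ _).trans (Finset.sum_le_sum fun k hk => ?_)
      refine (Finset.abs_sum_le_sum_abs _ _).trans (Finset.sum_le_sum fun v _ => ?_)
      have hk' := Finset.mem_range.1 hk
      split_ifs with h5
      · exact (hB _ (by omega)).unsorted hd hR hzy hyx (Nat.sub_le _ _) (Nat.sub_le _ _)
          (Nat.sub_le _ _) (lt_of_le_of_lt (Nat.sub_le _ _) h2)
          (lt_of_le_of_lt (Nat.sub_le _ _) h3)
      · rw [abs_zero]; exact Int.natCast_nonneg _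
    have hcard : (piAntidiag (univ : Finset (Fin 6)) a).card = (a + 5).choose a := by
      have h5 := card_let 6 a
      rw [Fintype.card_coe] at h5
      rw [h5]
      congr 1
      omega
    simp only [Finset.sum_const, hcard, nsmul_eq_mul] at h4
    rw [← Finset.mul_sum] at h4
    have h6 : ∑ k ∈ range N, (B (N - (k + 1)) : ℤ) = ∑ j ∈ range N, (B j : ℤ) := by
      rw [← Finset.sum_range_reflect (fun j => (B j : ℤ)) N]
      refine Finset.sum_congr rfl fun k _ => ?_
      congr 2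
      omega
    rw [h6, abs_mul, Nat.abs_cast] at h4
    have h7 : (((a + 5).choose a : ℕ) : ℤ) * ∑ j ∈ range N, (B j : ℤ) ≤ N * B' + (N - 1) := by
      have h8 : ((((a + 5).choose a * ∑ j ∈ range N, B j : ℕ)) : ℤ) ≤
          ((N * B' + (N - 1) : ℕ) : ℤ) := by exact_mod_cast h
      push_cast [Nat.cast_sub hN] at h8
      exact h8
    have h9 : (N : ℤ) * |cf N a e2 e3 x y z| < N * (B' + 1) := by
      calc (N : ℤ) * |cf N a e2 e3 x y z| ≤ _ := h4
        _ ≤ N * B' + (N - 1) := h7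
        _ < N * (B' + 1) := by ring_nf; linarith
    have hNpos : (0 : ℤ) < N := by exact_mod_cast hN
    have h10 := lt_of_mul_lt_mul_left h9 hNpos.le
    omega
  · rw [cf, if_neg hle, abs_zero]
    exact Int.natCast_nonneg _

end Vale.Agent.P181.H51
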