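import Vale.Agent.P181.H51.Level
import Vale.Agent.P181.H177.Weyl

set_option autoImplicit false

/-!
# P181: the levels computed with division, and the tests
-/

namespace Vale.Agent.P181.H51

open Finset MvPolynomial Vale.Agent.P181 Vale.Agent.P181.H280 Vale.Agent.P181.H605 Vale.Agent.P181.H788

/-- The table `F` holds the residues of the rows of level `N` in `Rg`. -/
def SOn (w S R N a : ℕ) (Rg : ℕ → ℕ → ℕ → Prop) (F : Tb) : Prop :=
  ∀ x y z, z < y → y < x → Rg x y z → (F x y z : ℤ) = G w S N a x y z % 2 ^ (w * (S * R))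

/-- The rows as packed digits. -/
lemma G_eq_sum (w : ℕ) {S N a : ℕ} (hS : dg N a < S) (x y z : ℕ) : G w S N a x y z =
    ∑ e3 ∈ range S, ∑ e2 ∈ range S, cf N a e2 e3 x y z * 2 ^ (w * (e2 + S * e3)) :=
  row_eq_sum w S (Fgen_homog 6 N a) S hS x y z

lemma SOn.rowMod {w S R N a : ℕ} {Rg : ℕ → ℕ → ℕ → Prop} {F : Tb} (h : SOn w S R N a Rg F)
    (hS : dg N a < S) (hRS : R ≤ S) {x y z : ℕ} (hzy : z < y) (hyx : y < x) (hR : Rg x y z) :
    RowMod w S R (F x y z) (fun e2 e3 => cf N a e2 e3 x y z) := by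
  refine ⟨S, hRS, ?_⟩
  rw [h x y z hzy hyx hR, G_eq_sum w hS]
  exact Int.mod_modEq _ _

/-- The table `F` holds, in the rows of `Rg`, residues of `g`. -/
def TabOn (K : ℕ) (Rg : ℕ → ℕ → ℕ → Prop) (F : Tb) (g : ℕ → ℕ → ℕ → ℤ) : Prop :=
  ∀ x y z, z < y → y < x → Rg x y z →
    ((F x y z : ℕ) : Z K) = ((g x y z : ℤ) : Z K) ∧ F x y z ≤ 2 ^ K

lemma sg_castOn {K : ℕ} {Rg : ℕ → ℕ → ℕ → Prop} (hd : Down Rg) {F : Tb} {g : ℕ → ℕ → ℕ → ℤ}
    (hF : TabOn K Rg F g) (hg : Anti g) {u v t : ℕ} (hR : Rg u v t) (htv : t < v) (hvu : v < u)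
    {x y z : ℕ} (hx : x ≤ u) (hy : y ≤ v) (hz : z ≤ t) :
    ((sg K F x y z : ℕ) : Z K) = ((g x y z : ℤ) : Z K) := by
  unfold sg
  simp only [H605.bt_ble, Nat.succ_le_iff]
  rcases lt_trichotomy x y with hxy | rfl | hxy
  · rw [if_neg (not_lt.2 hxy.le), if_pos hxy]
    rcases lt_trichotomy z x with hzx | rfl | hzx
    · rw [if_pos hzx]
      obtain ⟨h1, h2⟩ := hF y x z hzx hxy (hd u v t _ _ _ hR (by omega) (by omega) (by omega))
      change ((2 ^ K - F y x z : ℕ) : Z K) = _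
      rw [cast_sub' h2, h1, hg.s1 x y z]
      push_cast
      ring
    · rw [if_neg (lt_irrefl _), if_neg (lt_irrefl _), hg.e3]
      push_cast
      rfl
    · rw [if_neg (not_lt.2 hzx.le), if_pos hzx]
      rcases lt_trichotomy z y with hzy | rfl | hzy
      · rw [if_pos hzy]
        obtain ⟨h1, h2⟩ := hF y z x hzx hzy (hd u v t _ _ _ hR (by omega) (by omega) (by omega))
        rw [h1, hg.s2 y x z, hg.s1 x y z, neg_neg]
      · rw [if_neg (lt_irrefl _), if_neg (lt_irrefl _), hg.e2]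
        push_cast
        rfl
      · rw [if_neg (not_lt.2 hzy.le), if_pos hzy]
        obtain ⟨h1, h2⟩ := hF z y x hxy hzy (hd u v t _ _ _ hR (by omega) (by omega) (by omega))
        change ((2 ^ K - F z y x : ℕ) : Z K) = _
        rw [cast_sub' h2, h1, hg.s1 y z x, hg.s2 y x z, hg.s1 x y z]
        push_cast
        ring
  · rw [if_neg (lt_irrefl _), if_neg (lt_irrefl _), hg.e1]
    push_cast
    rfl
  · rw [if_pos hxy]
    rcases lt_trichotomy z y with hzy | rfl | hzy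
    · rw [if_pos hzy]
      exact (hF x y z hzy hxy (hd u v t _ _ _ hR (by omega) (by omega) (by omega))).1
    · rw [if_neg (lt_irrefl _), if_neg (lt_irrefl _), hg.e2]
      push_cast
      rfl
    · rw [if_neg (not_lt.2 hzy.le), if_pos hzy]
      rcases lt_trichotomy z x with hzx | rfl | hzx
      · rw [if_pos hzx]
        obtain ⟨h1, h2⟩ := hF x z y hzy hzx (hd u v t _ _ _ hR (by omega) (by omega) (by omega))
        change ((2 ^ K - F x z y : ℕ) : Z K) = _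
        rw [cast_sub' h2, h1, hg.s2 x y z]
        push_cast
        ring
      · rw [if_neg (lt_irrefl _), if_neg (lt_irrefl _), hg.e3]
        push_cast
        rfl
      · rw [if_neg (not_lt.2 hzx.le), if_pos hzx]
        obtain ⟨h1, h2⟩ := hF z x y hxy hzx (hd u v t _ _ _ hR (by omega) (by omega) (by omega))
        rw [h1, hg.s1 x z y, hg.s2 x y z, neg_neg]

lemma ctr_castOn {K : ℕ} {Rg : ℕ → ℕ → ℕ → Prop} (hd : Down Rg) {F : Tb} {g : ℕ → ℕ → ℕ → ℤ}
    (hF : TabOn K Rg F g) (hg : Anti g) (w S k d : ℕ) {x y z : ℕ} (hR : Rg x y z) (hzy : z < y)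
    (hyx : y < x) :
    ((ctr w S K k d F x y z : ℕ) : Z K) = ((ctrZ w S k d g x y z : ℤ) : Z K) := by
  unfold ctr ctrZ
  simp only [H605.sm_eq, H605.fc_eq, H605.mn_eq, Nat.cast_sum, Int.cast_sum]
  refine Finset.sum_congr rfl fun a _ => Finset.sum_congr rfl fun b _ =>
    Finset.sum_congr rfl fun c _ => ?_
  change ((hv w S K k (d - a - b - c) * sg K F (x - k * a) (y - k * b) (z - k * c) : ℕ) : Z K) = _
  rw [Nat.cast_mul, hv_cast, sg_castOn hd hF hg hR hzy hyx (Nat.sub_le _ _) (Nat.sub_le _ _)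
    (Nat.sub_le _ _), Int.cast_mul]

lemma SOn.tab {w S R N a : ℕ} {Rg : ℕ → ℕ → ℕ → Prop} {F : Tb} (h : SOn w S R N a Rg F) :
    TabOn (w * (S * R)) Rg F (G w S N a) := by
  intro x y z h1 h2 hR
  have h3 := h x y z h1 h2 hR
  have hpos : (0 : ℤ) < (2 : ℤ) ^ (w * (S * R)) := by positivity
  constructor
  · have h4 := congrArg (Int.cast : ℤ → Z (w * (S * R))) h3
    rw [Int.cast_natCast] at h4
    rw [h4]
    have h5 : ((2 : ℤ) ^ (w * (S * R))) = ((2 ^ (w * (S * R)) : ℕ) : ℤ) := by push_cast; rfl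
    rw [h5, ZMod.intCast_mod]
  · have h4 := Int.emod_lt_of_pos (G w S N a x y z) hpos
    rw [← h3] at h4
    exact_mod_cast h4.le

/-- Subtract the offset `2 ^ v` from every digit. -/
def unoff (w L v u : ℕ) : ℕ :=
  Nat.mod (Nat.add u (Nat.sub (Nat.pow 2 (Nat.mul w L)) (Nat.mul (Nat.pow 2 v) (ones w L))))
    (Nat.pow 2 (Nat.mul w L))

/-- Exact division of all (signed) digits by `N`. -/
def dvs (w L N v u : ℕ) : ℕ :=
  unoff w L v (Nat.div (Nat.mod (Nat.add u (Nat.mul N (Nat.mul (Nat.pow 2 v) (ones w L))))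
    (Nat.pow 2 (Nat.mul w L))) N)

lemma ones_le (w L v : ℕ) (hv : v + 1 ≤ w) : 2 ^ v * ones w L ≤ 2 ^ (w * L) := by
  rw [← nev_const w L _ (by omega)]
  apply (nev_lt w L _ _).le
  intro i _
  exact Nat.pow_lt_pow_right (by norm_num) (by omega)

theorem dvs_lt (w L N v u : ℕ) : dvs w L N v u < 2 ^ (w * L) :=
  Nat.mod_lt _ (by change 0 < 2 ^ (w * L); positivity)

/-- **The division step.** -/
theorem dvs_eq {w L N v u : ℕ} (hN : 0 < N) {d : ℕ → ℤ} (hd : ∀ i < L, |d i| < 2 ^ v)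
    (hvw : N * 2 ^ (v + 1) ≤ 2 ^ w) {g : ℤ} (hg : g ≡ ev (2 ^ w) L d [ZMOD 2 ^ (w * L)])
    (hu : (u : ℤ) ≡ N * g [ZMOD 2 ^ (w * L)]) :
    (dvs w L N v u : ℤ) = g % 2 ^ (w * L) := by
  have hNpos : (0 : ℤ) < N := by exact_mod_cast hN
  have hvw' : (N : ℤ) * 2 ^ (v + 1) ≤ 2 ^ w := by exact_mod_cast hvw
  have hw : v + 1 ≤ w := by
    by_contra hcon
    have h1 : 2 ^ w < 2 ^ (v + 1) := Nat.pow_lt_pow_right (by norm_num) (by omega)
    have h2 : 2 ^ (v + 1) ≤ N * 2 ^ (v + 1) := Nat.le_mul_of_pos_left _ hN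
    omega
  have hpow : (2 : ℤ) ^ (v + 1) = 2 * 2 ^ v := pow_succ' 2 v
  -- the digits `d + 2^v`
  set e : ℕ → ℕ := fun i => (d i + 2 ^ v).toNat with he
  have hc : ∀ i < L, ((e i : ℕ) : ℤ) = d i + 2 ^ v := fun i hi =>
    Int.toNat_of_nonneg (by linarith [(abs_lt.1 (hd i hi)).1])
  have hlt : ∀ i < L, N * e i < 2 ^ w := by
    intro i hi
    have h1 := hc i hi
    have h2 := (abs_lt.1 (hd i hi)).2
    have h3 : (e i : ℤ) < 2 ^ (v + 1) := by rw [h1]; linarith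
    have h4 : ((N * e i : ℕ) : ℤ) < ((2 ^ w : ℕ) : ℤ) := by
      push_cast
      calc (N : ℤ) * e i < N * 2 ^ (v + 1) := by
            exact mul_lt_mul_of_pos_left h3 hNpos
        _ ≤ 2 ^ w := hvw'
    exact_mod_cast h4
  have hev : ev (2 ^ w) L (fun i => (e i : ℤ)) =
      ev (2 ^ w) L d + ((2 ^ v * ones w L : ℕ) : ℤ) := by
    rw [ones_cast w L (2 ^ v) (by omega), ← ev_add]
    unfold ev
    apply Finset.sum_congr rfl
    intro i hi
    simp only [hc i (Finset.mem_range.1 hi)]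
    push_cast
    ring
  have h1 : (u + N * (2 ^ v * ones w L)) % 2 ^ (w * L) = nev w L (fun i => N * e i) := by
    apply mod_eq_nev hlt
    have h2 : ev (2 ^ w) L (fun i => ((N * e i : ℕ) : ℤ)) =
        N * (ev (2 ^ w) L d + ((2 ^ v * ones w L : ℕ) : ℤ)) := by
      rw [← hev, ← ev_smul]
      unfold ev
      apply Finset.sum_congr rfl
      intro i _
      push_cast
      ring
    rw [h2]
    push_cast
    rw [mul_add]
    exact Int.ModEq.add_right _ (hu.trans (hg.mul_left _))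
  have h2 : nev w L (fun i => N * e i) / N = nev w L e := by
    have h3 : nev w L (fun i => N * e i) = N * nev w L e := by
      unfold nev
      rw [Finset.mul_sum]
      apply Finset.sum_congr rfl
      intro i _
      ring
    rw [h3, Nat.mul_div_cancel_left _ hN]
  have h3 : dvs w L N v u = (nev w L e + (2 ^ (w * L) - 2 ^ v * ones w L)) % 2 ^ (w * L) := by
    rw [← h2, ← h1]
    rfl
  rw [h3]
  have h4 : (((nev w L e + (2 ^ (w * L) - 2 ^ v * ones w L)) % 2 ^ (w * L) : ℕ) : ℤ) =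
      ((nev w L e : ℤ) + (2 ^ (w * L) - ((2 ^ v * ones w L : ℕ) : ℤ))) % 2 ^ (w * L) := by
    push_cast [Nat.cast_sub (ones_le w L v hw)]
    rfl
  rw [h4, cast_nev, hev]
  have h5 : ev (2 ^ w) L d + ((2 ^ v * ones w L : ℕ) : ℤ) +
      (2 ^ (w * L) - ((2 ^ v * ones w L : ℕ) : ℤ)) = ev (2 ^ w) L d + 2 ^ (w * L) := by ring
  rw [h5, Int.add_emod_right]
  exact hg.symm

/-- **The level lemma.** -/
theorem level {w S R N a v B' : ℕ} {Rg : ℕ → ℕ → ℕ → Prop} (hd : Down Rg) (hN : 0 < N)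
    (hS : dg N a < S) (hRS : R ≤ S) (T : ℕ → Tb) (hT : ∀ j < N, SOn w S R j a Rg (T j))
    (hT1 : ∀ x y z, T (N - 1) x y z ≤ 2 ^ (w * (S * R)))
    (hB : BOn S R N a Rg B') (hv : B' < 2 ^ v) (hw : N * 2 ^ (v + 1) ≤ 2 ^ w) {F : Tb}
    (hF : ∀ x y z, z < y → y < x → Rg x y z → (F x y z : ℕ) =
      dvs w (S * R) N v (pie w S (w * (S * R)) a (T (N - 1)) x y z +
        ∑ k ∈ range (N - 1), ctr w S (w * (S * R)) (k + 2) a (T (N - (k + 2))) x y z)) :
    SOn w S R N a Rg F := by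
  intro x y z hzy hyx hR
  rw [hF x y z hzy hyx hR]
  have hg : G w S N a x y z ≡
      ev (2 ^ w) (S * R) (flat S (fun e2 e3 => cf N a e2 e3 x y z)) [ZMOD 2 ^ (w * (S * R))] := by
    have h1 : RowMod w S R (G w S N a x y z % 2 ^ (w * (S * R))).toNat
        (fun e2 e3 => cf N a e2 e3 x y z) := by
      refine ⟨S, hRS, ?_⟩
      rw [Int.toNat_of_nonneg (Int.emod_nonneg _ (by positivity)), ← G_eq_sum w hS]
      exact Int.mod_modEq _ _
    have h2 := row_trunc h1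
    rw [Int.toNat_of_nonneg (Int.emod_nonneg _ (by positivity))] at h2
    exact (Int.mod_modEq _ _).symm.trans h2
  refine dvs_eq hN (flat_forall (p := fun t => |t| < 2 ^ v) (fun e2 h2 e3 h3 => ?_)) hw hg ?_
  · have h1 := hB x y z hzy hyx hR e2 h2 e3 h3
    have h4 : (B' : ℤ) < 2 ^ v := by exact_mod_cast hv
    exact lt_of_le_of_lt h1 h4
  · -- the recursion
    have hrec : (N : ℤ) * G w S N a x y z =
        ∑ k ∈ range N, ctrZ w S (k + 1) a (G w S (N - (k + 1)) a) x y z := G_rec w S N a x y z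
    obtain ⟨M, rfl⟩ : ∃ M, N = M + 1 := ⟨N - 1, by omega⟩
    have h1 : (((pie w S (w * (S * R)) a (T (M + 1 - 1)) x y z +
        ∑ k ∈ range (M + 1 - 1), ctr w S (w * (S * R)) (k + 2) a (T (M + 1 - (k + 2))) x y z : ℕ) :
          ℤ) : Z (w * (S * R))) = ((((M + 1 : ℕ) : ℤ) * G w S (M + 1) a x y z : ℤ) :
            Z (w * (S * R))) := by
      rw [hrec, Finset.sum_range_succ', Int.cast_natCast, Nat.cast_add,
        H177.pie_eq_ctr w S (w * (S * R)) a _ (fun x y z _ _ => hT1 x y z) hzy hyx,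
        ctr_castOn hd (hT _ (by omega)).tab (G_anti w S _ a) w S 1 a hR hzy hyx, add_comm]
      push_cast
      congr 1
      refine Finset.sum_congr (by simp) fun k hk => ?_
      have hk' := Finset.mem_range.1 hk
      rw [ctr_castOn hd (hT _ (by omega)).tab (G_anti w S _ a) w S (k + 2) a hR hzy hyx]
    have h2 := (ZMod.intCast_eq_intCast_iff _ _ (2 ^ (w * (S * R)))).1 h1
    have h3 : ((2 ^ (w * (S * R)) : ℕ) : ℤ) = 2 ^ (w * (S * R)) := by push_cast; rfl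
    rw [h3] at h2
    exact h2

/-- The digit test of a row. -/
def dtest (w L v u : ℕ) : Bool :=
  Nat.beq (Nat.land (Nat.mod (Nat.add u (Nat.mul (Nat.pow 2 v) (ones w L)))
    (Nat.pow 2 (Nat.mul w L))) (Nat.mul (Nat.sub (Nat.pow 2 w) (Nat.pow 2 (Nat.succ v)))
      (ones w L))) 0

/-- **The digit test bounds the digits of a level.** -/
theorem btest {w S R N a v B' : ℕ} {Rg : ℕ → ℕ → ℕ → Prop} {F : Tb} (hF : SOn w S R N a Rg F)
    (hS : dg N a < S) (hRS : R ≤ S) (hB : BOn S R N a Rg B') (hB' : B' < 2 ^ (w - 1))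
    (hv : v + 1 ≤ w)
    (ht : ∀ x y z, z < y → y < x → Rg x y z → dtest w (S * R) v (F x y z) = true) :
    BOn S R N a Rg (2 ^ v) := by
  intro x y z hzy hyx hR e2 h2 e3 h3
  have h4 : (B' : ℤ) < 2 ^ (w - 1) := by exact_mod_cast hB'
  have h5 := digit_test hv (hF.rowMod hS hRS hzy hyx hR)
    (fun a2 ha2 a3 ha3 => lt_of_le_of_lt (hB x y z hzy hyx hR a2 ha2 a3 ha3) h4)
    (Nat.eq_of_beq_eq_true (ht x y z hzy hyx hR)) h2 h3
  rw [abs_le]
  push_cast
  exact ⟨h5.1, h5.2.le⟩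

/-- Level zero. -/
theorem level0 (w S R a : ℕ) (Rg : ℕ → ℕ → ℕ → Prop) :
    SOn w S R 0 a Rg (row0 w S (w * (S * R))) := by
  intro x y z hzy hyx _
  have h := H177.row0_sound w S (w * (S * R)) a x y z hzy hyx
  rw [h, H, Nat.factorial_zero, Nat.cast_one, one_mul]

lemma row0_lt (w S K x y z : ℕ) : row0 w S K x y z ≤ 2 ^ K := by
  rw [row0, H605.bt_ble]
  split_ifs
  · exact (Nat.mod_lt _ (by change 0 < 2 ^ K; positivity)).le
  · positivity

/-- The coefficients of level zero are at most one. -/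
theorem BOn_zero (S R a : ℕ) (Rg : ℕ → ℕ → ℕ → Prop) : BOn S R 0 a Rg 1 := by
  intro x y z _ _ _ e2 _ e3 _
  have h1 : ∀ v : Fin 6 → ℕ, |coeff (fs v) (Fgen 6 0 a)| ≤ 1 := by
    intro v
    rw [Fgen_zero, H177.coeff_vdm6]
    split_ifs
    · rw [abs_pow]; simp
    · simp
  rw [cf]
  split_ifs
  · exact_mod_cast h1 _
  · simp

/-- The coefficient at a dominant place. -/
theorem cf_eq_plethMult (N a : ℕ) {e1 e2 e3 x y z : ℕ} (h12 : e2 < e1) (h23 : e3 < e2)
    (h3x : x < e3) (hxy : y < x) (hyz : z < y) (hsum : e1 + e2 + e3 + x + y + z = dg N a) :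
    cf N a e2 e3 x y z =
      (plethMult N a 6 ![e1 - 5, e2 - 4, e3 - 3, x - 2, y - 1, z] : ℤ) := by
  have hle : x + y + z + e2 + e3 ≤ dg N a := by omega
  have h1 : dg N a - (x + y + z + e2 + e3) = e1 := by omega
  rw [cf, if_pos hle, h1]
  have hanti : Antitone (![e1 - 5, e2 - 4, e3 - 3, x - 2, y - 1, z] : Fin 6 → ℕ) := by
    intro i j hij
    fin_cases i <;> fin_cases j <;>
      first
      | exact absurd hij (by decide)
      | (simp only [Fin.mk_zero, Fin.mk_one, Matrix.cons_val_zero, Matrix.cons_val_one,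
          Matrix.cons_val, Fin.reduceFinMk, Fin.isValue]; omega)
  have h2 := coeff_Fgen_of_weyl (H177.plethMult_weyl 6 N a)
    ![e1 - 5, e2 - 4, e3 - 3, x - 2, y - 1, z] hanti
  rw [← h2]
  congr 2
  ext i
  fin_cases i
  · change e1 = e1 - 5 + (6 - 1 - 0); omega
  · change e2 = e2 - 4 + (6 - 1 - 1); omega
  · change e3 = e3 - 3 + (6 - 1 - 2); omega
  · change x = x - 2 + (6 - 1 - 3); omega
  · change y = y - 1 + (6 - 1 - 4); omega
  · change z = z + (6 - 1 - 5); omega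

/-- **Reading a multiplicity from a row.** -/
theorem row_value {w S R N a B' : ℕ} {Rg : ℕ → ℕ → ℕ → Prop} {F : Tb} (hF : SOn w S R N a Rg F)
    (hS : dg N a < S) (hRS : R ≤ S) (hB : BOn S R N a Rg B') (hw : 0 < w)
    (hB' : B' < 2 ^ (w - 1)) {e1 e2 e3 x y z : ℕ} (h12 : e2 < e1) (h23 : e3 < e2)
    (h3x : x < e3) (hxy : y < x) (hyz : z < y) (hsum : e1 + e2 + e3 + x + y + z = dg N a)
    (hR : Rg x y z) (h3 : e3 < R) :
    ((F x y z + off w (S * R)) % 2 ^ (w * (S * R))) >>> (w * (e2 + S * e3)) % 2 ^ w =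
      plethMult N a 6 ![e1 - 5, e2 - 4, e3 - 3, x - 2, y - 1, z] + 2 ^ (w - 1) := by
  have h4 : (B' : ℤ) < 2 ^ (w - 1) := by exact_mod_cast hB'
  rw [digit_value hw (hF.rowMod hS hRS hyz hxy hR) (fun a2 ha2 a3 ha3 => by
    have h5 := abs_lt.1 (lt_of_le_of_lt (hB x y z hyz hxy hR a2 ha2 a3 ha3) h4)
    exact ⟨h5.1.le, h5.2⟩) (by omega) h3, cf_eq_plethMult N a h12 h23 h3x hxy hyz hsum]
  have h6 : ((plethMult N a 6 ![e1 - 5, e2 - 4, e3 - 3, x - 2, y - 1, z] : ℕ) : ℤ) +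
      2 ^ (w - 1) = ((plethMult N a 6 ![e1 - 5, e2 - 4, e3 - 3, x - 2, y - 1, z] +
        2 ^ (w - 1) : ℕ) : ℤ) := by push_cast; rfl
  rw [h6, Int.toNat_natCast]

end Vale.Agent.P181.H51
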