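import Vale.Agent.P181.H788.Prog

set_option autoImplicit false

/-!
# P181, `a = 6`: the loops `pie` and `ctr` with running sums (kernel part)

The middle sum `J d x y z = ∑ b, I (d - b) x (y - k b) z` is computed as
`I d x y z + J (d - 1) x (y - k) z`, which is shared between rows.
-/

noncomputable section

namespace Vale.Agent.P181.H51

open Vale.Agent.P181.H788

/-- `∑ i ≤ n, f i` -/
def sp (f : Nat → Nat) (n : Nat) : Nat :=
  @Nat.rec (fun _ => Nat) (f 0) (fun i ih => Nat.add ih (f (Nat.succ i))) n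

/-- `∑ i < n, f i` -/
def sn (f : Nat → Nat) (n : Nat) : Nat :=
  @Nat.rec (fun _ => Nat) 0 (fun i _ => sp f i) n

/-- `∑ b ≤ n, I (d - b) (y - k b)` -/
def js (k : Nat) (I : Nat → Nat → Nat) (n : Nat) : Nat → Nat → Nat :=
  @Nat.rec (fun _ => Nat → Nat → Nat) (fun d y => I d y)
    (fun _ ih d y => Nat.add (I d y)
      (fc (Nat.sub d 1) fun d' => fc (Nat.sub y k) fun y' => ih d' y')) n

/-- the inner sum for `k = 1` -/
def pI (w S K : Nat) (F : Tb) (x z d y : Nat) : Nat :=
  sp (fun c => fc (Nat.sub z c) fun z' => fc (Nat.sub d c) fun r =>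
    Nat.mul (hv w S K 1 r) (F x y z')) (mn z d)

/-- the inner sum for `k` -/
def cI (w S K k : Nat) (F : Tb) (x z d y : Nat) : Nat :=
  sp (fun c => fc (Nat.sub z (Nat.mul k c)) fun z' => fc (Nat.sub d c) fun r =>
    Nat.mul (hv w S K k r) (sg K F x y z')) (mn (Nat.div z k) d)

/-- the middle sum for `k = 1` -/
def pJ (w S K : Nat) (F : Tb) (z x d y : Nat) : Nat :=
  @Nat.rec (fun _ => Nat) 0 (fun n _ => js 1 (pI w S K F x z) n d y)
    (mn (Nat.sub y z) (Nat.succ d))

/-- the middle sum for `k` -/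
def cJ (w S K k : Nat) (F : Tb) (z x d y : Nat) : Nat :=
  fc (mn (Nat.div y k) d) fun n => js k (cI w S K k F x z) n d y

/-- `pie` -/
def pieR (w S K d : Nat) (F : Tb) (x y z : Nat) : Nat :=
  sn (fun a => fc (Nat.sub x a) fun x' => fc (Nat.sub d a) fun d' => pJ w S K F z x' d' y)
    (mn (Nat.sub x y) (Nat.succ d))

/-- `ctr` -/
def ctrR (w S K k d : Nat) (F : Tb) (x y z : Nat) : Nat :=
  sp (fun a => fc (Nat.sub x (Nat.mul k a)) fun x' => fc (Nat.sub d a) fun d' =>
    cJ w S K k F z x' d' y) (mn (Nat.div x k) d)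

end Vale.Agent.P181.H51
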