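import Vale.Agent.P181.H605.Prg
import Vale.Agent.P181.H51.Run

set_option autoImplicit false

/-!
# P181: `pieR = pie` and `ctrR = ctr`
-/

namespace Vale.Agent.P181.H51

open Finset Vale.Agent.P181.H605 Vale.Agent.P181.H788

lemma sp_eq (f : ℕ → ℕ) (n : ℕ) : sp f n = ∑ i ∈ range (n + 1), f i := by
  induction n with
  | zero =>
    rw [zero_add, sum_range_one]
    rfl
  | succ n ih =>
    rw [sum_range_succ, ← ih]
    rfl

lemma sn_eq (f : ℕ → ℕ) (n : ℕ) : sn f n = ∑ i ∈ range n, f i := by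
  cases n with
  | zero => rfl
  | succ n => exact sp_eq f n

lemma js_eq (k : ℕ) (I : ℕ → ℕ → ℕ) (n : ℕ) :
    ∀ d y, js k I n d y = ∑ b ∈ range (n + 1), I (d - b) (y - k * b) := by
  induction n with
  | zero =>
    intro d y
    rw [zero_add, sum_range_one]
    rfl
  | succ n ih =>
    intro d y
    have h : js k I (n + 1) d y =
        I d y + fc (Nat.sub d 1) fun d' => fc (Nat.sub y k) fun y' => js k I n d' y' := rfl
    have h3 : ∀ b ∈ range (n + 1), I (Nat.sub d 1 - b) (Nat.sub y k - k * b) =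
        I (d - (b + 1)) (y - k * (b + 1)) := by
      intro b _
      have h1 : Nat.sub d 1 - b = d - (b + 1) := by
        change d - 1 - b = _
        omega
      have h2 : Nat.sub y k - k * b = y - k * (b + 1) := by
        change y - k - k * b = _
        rw [Nat.sub_sub, mul_add, mul_one, add_comm k]
      rw [h1, h2]
    rw [h, fc_eq, fc_eq, ih, sum_range_succ' _ (n + 1), add_comm, sum_congr rfl h3, mul_zero]
    rfl

lemma pI_eq (w S K : ℕ) (F : Tb) (x z d y : ℕ) : pI w S K F x z d y =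
    sm (fun c => fc (Nat.sub z c) fun z' => fc (Nat.sub d c) fun r =>
      Nat.mul (hv w S K 1 r) (F x y z')) (Nat.succ (mn z d)) := by
  rw [sm_eq]
  exact sp_eq _ _

lemma cI_eq (w S K k : ℕ) (F : Tb) (x z d y : ℕ) : cI w S K k F x z d y =
    sm (fun c => fc (Nat.sub z (Nat.mul k c)) fun z' => fc (Nat.sub d c) fun r =>
      Nat.mul (hv w S K k r) (sg K F x y z')) (Nat.succ (mn (Nat.div z k) d)) := by
  rw [sm_eq]
  exact sp_eq _ _

lemma pJ_eq (w S K : ℕ) (F : Tb) (z x d y : ℕ) : pJ w S K F z x d y =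
    ∑ b ∈ range (mn (Nat.sub y z) (Nat.succ d)), pI w S K F x z (d - b) (y - b) := by
  unfold pJ
  cases mn (Nat.sub y z) (Nat.succ d) with
  | zero => rfl
  | succ n =>
    change js 1 (pI w S K F x z) n d y = _
    rw [js_eq]
    refine sum_congr rfl fun b _ => ?_
    rw [one_mul]

lemma cJ_eq (w S K k : ℕ) (F : Tb) (z x d y : ℕ) : cJ w S K k F z x d y =
    ∑ b ∈ range (Nat.succ (mn (Nat.div y k) d)), cI w S K k F x z (d - b) (y - k * b) := by
  unfold cJ
  rw [fc_eq, js_eq]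

/-- **`pieR` is `pie`.** -/
theorem pieR_eq (w S K d : ℕ) (F : Tb) (x y z : ℕ) :
    pieR w S K d F x y z = pie w S K d F x y z := by
  unfold pieR pie
  rw [sn_eq, sm_eq]
  refine sum_congr rfl fun a _ => ?_
  rw [fc_eq, fc_eq, fc_eq, fc_eq, pJ_eq, sm_eq]
  refine sum_congr rfl fun b _ => ?_
  rw [fc_eq, fc_eq, pI_eq]
  rfl

/-- **`ctrR` is `ctr`.** -/
theorem ctrR_eq (w S K k d : ℕ) (F : Tb) (x y z : ℕ) :
    ctrR w S K k d F x y z = ctr w S K k d F x y z := by
  unfold ctrR ctr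
  rw [sp_eq, sm_eq]
  refine sum_congr rfl fun a _ => ?_
  rw [fc_eq, fc_eq, fc_eq, fc_eq, cJ_eq, sm_eq]
  refine sum_congr rfl fun b _ => ?_
  rw [fc_eq, fc_eq, cI_eq]
  rfl

theorem pieR_fun : pieR = pie := by
  funext w S K d F x y z
  exact pieR_eq w S K d F x y z

theorem ctrR_fun : ctrR = ctr := by
  funext w S K k d F x y z
  exact ctrR_eq w S K k d F x y z

end Vale.Agent.P181.H51
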