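import Vale.Agent.P181.H51.Chk

set_option autoImplicit false

/-! Reading one digit of a row. -/

namespace Vale.Agent.P181.H51

open Finset Vale.Agent.P181.H788

lemma nev_digit (w L : ℕ) : ∀ (e : ℕ → ℕ), (∀ i < L, e i < 2 ^ w) → ∀ i < L,
    nev w L e / 2 ^ (w * i) % 2 ^ w = e i := by
  induction L with
  | zero => intro e _ i hi; omega
  | succ L ih =>
    intro e he i hi
    rw [nev_succ]
    rcases Nat.eq_zero_or_pos i with h | h
    · subst h
      rw [Nat.mul_zero, pow_zero, Nat.div_one, Nat.mul_add_mod, Nat.mod_eq_of_lt (he 0 (by omega))]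
    · obtain ⟨k, rfl⟩ : ∃ k, i = k + 1 := ⟨i - 1, by omega⟩
      have h1 : w * (k + 1) = w + w * k := by ring
      rw [h1, pow_add, ← Nat.div_div_eq_div_mul]
      have h2 : (2 ^ w * nev w L (fun i => e (i + 1)) + e 0) / 2 ^ w =
          nev w L (fun i => e (i + 1)) := by
        rw [Nat.mul_add_div (by positivity), Nat.div_eq_of_lt (he 0 (by omega)), Nat.add_zero]
      rw [h2]
      exact ih (fun i => e (i + 1)) (fun i hi => he (i + 1) (by omega)) k (by omega)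

/-- **The value of a digit of a row.** -/
theorem digit_value {w S R u : ℕ} {c : ℕ → ℕ → ℤ} (hw : 0 < w) (h : RowMod w S R u c)
    (hc : ∀ e2 < S, ∀ e3 < R, -2 ^ (w - 1) ≤ c e2 e3 ∧ c e2 e3 < 2 ^ (w - 1))
    {e2 e3 : ℕ} (h2 : e2 < S) (h3 : e3 < R) :
    ((u + off w (S * R)) % 2 ^ (w * (S * R))) >>> (w * (e2 + S * e3)) % 2 ^ w =
      (c e2 e3 + 2 ^ (w - 1)).toNat := by
  have h1 : (2 : ℤ) ^ w = 2 * 2 ^ (w - 1) := by
    rw [← pow_succ']; congr 1; omega
  have hd : ∀ i < S * R, -2 ^ (w - 1) ≤ flat S c i ∧ flat S c i + 2 ^ (w - 1) < 2 ^ w := by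
    intro i hi
    have h4 := flat_forall (p := fun z => -2 ^ (w - 1) ≤ z ∧ z < 2 ^ (w - 1)) hc i hi
    constructor <;> linarith [h4.1, h4.2]
  rw [off_eq, shift_eq_nev hw hd (row_trunc h), Nat.shiftRight_eq_div_pow,
    nev_digit w (S * R) _ ?_ _ (lt_index h2 h3), flat_eq c h2]
  intro i hi
  have h5 : (((flat S c i + 2 ^ (w - 1)).toNat : ℕ) : ℤ) = flat S c i + 2 ^ (w - 1) :=
    Int.toNat_of_nonneg (by linarith [(hd i hi).1])
  have h6 := (hd i hi).2
  rw [← h5] at h6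
  exact_mod_cast h6

end Vale.Agent.P181.H51
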